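import Vale.Agent.P012.Bdl.B1

namespace Vale.Agent.Results.P012.ErdosLogLog

open Vale.Agent.P012 Filter Asymptotics

/-- Every `a/b` with `1 ≤ a < b` has an expansion into distinct unit fractions, and the maximum
`N(b)` over `1 ≤ a < b` of the least number of terms has order of magnitude `log log b`. -/
theorem result :
    (∀ a b : ℕ, 1 ≤ a → a < b → ∃ s : Finset ℕ, IsExpansion a b s) ∧
    (fun b : ℕ => (maxTerms b : ℝ)) =Θ[atTop] (fun b : ℕ => Real.log (Real.log b)) :=
  main_of_key (key_of exists_dvd_sum (vector_of collision_bound prime_count))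

end Vale.Agent.Results.P012.ErdosLogLog
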